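import Mathlib

/-!
# Seymour's second neighbourhood conjecture, unweighted form: basic notions

`N v` is the closed out-neighbourhood of `v`; `nb N S` the closed out-neighbourhood of a set;
`cc N S = |N[S]| - |S|`.
-/

namespace Vale.Agent.P038.H482

open Finset

set_option linter.unusedSectionVars false

variable {V : Type*} [Fintype V] [DecidableEq V]

/-- closed out-neighbourhood of a set -/
def nb (N : V → Finset V) (S : Finset V) : Finset V := S.biUnion N

theorem mem_nb {N : V → Finset V} {S : Finset V} {x : V} :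
    x ∈ nb N S ↔ ∃ y ∈ S, x ∈ N y := by
  simp [nb]

theorem nb_mono {N : V → Finset V} {S T : Finset V} (h : S ⊆ T) : nb N S ⊆ nb N T := by
  intro x hx
  rw [mem_nb] at hx ⊢
  obtain ⟨y, hy, hxy⟩ := hx
  exact ⟨y, h hy, hxy⟩

theorem nb_union {N : V → Finset V} {S T : Finset V} : nb N (S ∪ T) = nb N S ∪ nb N T := by
  ext x
  simp only [mem_nb, mem_union]
  constructor
  · rintro ⟨y, hy | hy, h⟩
    · exact Or.inl ⟨y, hy, h⟩
    · exact Or.inr ⟨y, hy, h⟩
  · rintro (⟨y, hy, h⟩ | ⟨y, hy, h⟩)
    · exact ⟨y, Or.inl hy, h⟩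
    · exact ⟨y, Or.inr hy, h⟩

theorem nb_inter_subset {N : V → Finset V} {S T : Finset V} :
    nb N (S ∩ T) ⊆ nb N S ∩ nb N T := by
  intro x hx
  rw [mem_inter]
  exact ⟨nb_mono inter_subset_left hx, nb_mono inter_subset_right hx⟩

theorem subset_nb {N : V → Finset V} (hr : ∀ v, v ∈ N v) (S : Finset V) : S ⊆ nb N S := by
  intro x hx
  rw [mem_nb]
  exact ⟨x, hx, hr x⟩

/-- boundary function -/
def cc (N : V → Finset V) (S : Finset V) : ℤ := ((nb N S).card : ℤ) - (S.card : ℤ)

theorem cc_submod (N : V → Finset V) (S T : Finset V) :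
    cc N (S ∪ T) + cc N (S ∩ T) ≤ cc N S + cc N T := by
  unfold cc
  have h1 : (nb N (S ∪ T)).card + (nb N (S ∩ T)).card ≤ (nb N S).card + (nb N T).card := by
    rw [nb_union, ← card_union_add_card_inter (nb N S) (nb N T)]
    have := card_le_card (nb_inter_subset (N := N) (S := S) (T := T))
    omega
  have h2 := card_union_add_card_inter S T
  omega

/-- Legal pairs of families. -/
structure Legal (N B C : V → Finset V) : Prop where
  left : ∀ a, N a ⊆ B a
  right : ∀ a, N a ⊆ C a
  orth : ∀ a b, b ∈ B a → a ∈ C b → a = b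

theorem Legal.symm {N B C : V → Finset V} (h : Legal N B C) : Legal N C B :=
  ⟨h.right, h.left, fun a b hb ha => (h.orth b a ha hb).symm⟩

/-- energy of a family -/
def En (N B : V → Finset V) : ℤ := ∑ a, cc N (B a)

/-- Optimal legal pairs. -/
structure Opt (N B C : V → Finset V) : Prop where
  legal : Legal N B C
  opt : ∀ B' C', Legal N B' C' → En N B + En N C ≤ En N B' + En N C'

theorem Opt.symm {N B C : V → Finset V} (h : Opt N B C) : Opt N C B :=
  ⟨h.legal.symm, fun B' C' h' => by
    have := h.opt C' B' h'.symm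
    linarith⟩

theorem exists_opt {N : V → Finset V} (h0 : Legal N N N) : ∃ B C, Opt N B C := by
  classical
  let S : Finset ((V → Finset V) × (V → Finset V)) := univ.filter (fun p => Legal N p.1 p.2)
  have hS : S.Nonempty := ⟨(N, N), by simp [S, h0]⟩
  obtain ⟨p, hp, hmin⟩ := exists_min_image S (fun p => En N p.1 + En N p.2) hS
  refine ⟨p.1, p.2, ?_, ?_⟩
  · simpa [S] using hp
  · intro B' C' h'
    have := hmin (B', C') (by simp [S, h'])
    simpa using this

/-- One row of an optimal pair may be enlarged inside its window without profit. -/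
theorem Opt.row {N B C : V → Finset V} (h : Opt N B C) (s : V) (T : Finset V)
    (hT : ∀ x ∈ T, x = s ∨ s ∉ C x) : cc N (B s) ≤ cc N (B s ∪ T) := by
  classical
  let B' : V → Finset V := Function.update B s (B s ∪ T)
  have hB's : B' s = B s ∪ T := by simp [B']
  have hB'n : ∀ a, a ≠ s → B' a = B a := fun a ha => by simp [B', ha]
  have hleg : Legal N B' C := by
    refine ⟨?_, h.legal.right, ?_⟩
    · intro a
      by_cases ha : a = s
      · subst ha
        rw [hB's]
        exact (h.legal.left a).trans subset_union_left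
      · rw [hB'n a ha]
        exact h.legal.left a
    · intro a b hb hab
      by_cases ha : a = s
      · subst ha
        rw [hB's, mem_union] at hb
        rcases hb with hb | hb
        · exact h.legal.orth _ _ hb hab
        · rcases hT b hb with e | e
          · exact e.symm
          · exact absurd hab e
      · rw [hB'n a ha] at hb
        exact h.legal.orth _ _ hb hab
  have hopt := h.opt B' C hleg
  have e1 : En N B' = cc N (B s ∪ T) + ∑ a ∈ univ.erase s, cc N (B a) := by
    unfold En
    rw [← Finset.add_sum_erase univ _ (mem_univ s), hB's]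
    congr 1
    apply Finset.sum_congr rfl
    intro a ha
    rw [hB'n a (ne_of_mem_erase ha)]
  have e2 : En N B = cc N (B s) + ∑ a ∈ univ.erase s, cc N (B a) := by
    unfold En
    rw [← Finset.add_sum_erase univ _ (mem_univ s)]
  linarith

/-- left interior of a family -/
def KK (N B : V → Finset V) (a : V) : Finset V := univ.filter (fun x => ∀ s, a ∈ N s → x ∈ B s)

theorem mem_KK {N B : V → Finset V} {a x : V} : x ∈ KK N B a ↔ ∀ s, a ∈ N s → x ∈ B s := by
  simp [KK]

/-- Step 1: `K_a` minimises the boundary on its window. -/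
theorem Opt.step1 {N B C : V → Finset V} (h : Opt N B C) (a : V) (W : Finset V)
    (hKW : KK N B a ⊆ W) (hW : ∀ x ∈ W, ∀ s, a ∈ N s → x = s ∨ s ∉ C x) :
    cc N (KK N B a) ≤ cc N W := by
  classical
  have key : ∀ Ss : Finset V, (∀ s ∈ Ss, a ∈ N s) →
      cc N (W.filter (fun x => ∀ s ∈ Ss, x ∈ B s)) ≤ cc N W := by
    intro Ss
    induction Ss using Finset.induction_on with
    | empty => intro _; simp
    | insert s Ss hs ih =>
      intro hSs
      have ih' := ih (fun s' hs' => hSs s' (mem_insert_of_mem hs'))
      set T := W.filter (fun x => ∀ s ∈ Ss, x ∈ B s) with hT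
      have e : W.filter (fun x => ∀ s' ∈ insert s Ss, x ∈ B s') = B s ∩ T := by
        ext x
        simp only [hT, mem_filter, mem_inter, mem_insert, forall_eq_or_imp]
        tauto
      rw [e]
      have h1 := h.row s T (fun x hx => hW x (mem_filter.mp hx).1 s (hSs s (mem_insert_self _ _)))
      have h2 := cc_submod N (B s) T
      linarith
  have h1 := key (univ.filter (fun s => a ∈ N s)) (by simp)
  have e : W.filter (fun x => ∀ s ∈ univ.filter (fun s => a ∈ N s), x ∈ B s) = KK N B a := by
    ext x
    simp only [mem_filter, mem_univ, true_and, mem_KK]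
    constructor
    · exact fun hx => hx.2
    · exact fun hx => ⟨hKW (mem_KK.mpr hx), hx⟩
  rwa [e] at h1

/-- boundary inequality turned into a Hall inequality -/
theorem hall_of_cc {N : V → Finset V} {K Y : Finset V} (hd : Disjoint K Y)
    (h : cc N K ≤ cc N (K ∪ Y)) : Y.card ≤ (nb N Y \ nb N K).card := by
  unfold cc at h
  rw [nb_union, card_union_of_disjoint hd] at h
  have e : (nb N K ∪ nb N Y).card = (nb N K).card + (nb N Y \ nb N K).card := by
    rw [← union_sdiff_self_eq_union, card_union_of_disjoint disjoint_sdiff]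
  rw [e] at h
  push_cast at h
  omega

/-- Hall inequality for the rows `H_a`. -/
theorem Opt.hallK {N B C : V → Finset V} (h : Opt N B C) (a : V) (Y : Finset V)
    (hY : ∀ y ∈ Y, y ∉ KK N B a ∧ a ∉ nb N (C y)) :
    Y.card ≤ (nb N Y \ nb N (KK N B a)).card := by
  apply hall_of_cc
  · rw [disjoint_left]
    exact fun x hx hy => (hY x hy).1 hx
  · apply h.step1 a _ subset_union_left
    intro x hx s hs
    rcases mem_union.mp hx with hx | hx
    · by_cases hc : s ∈ C x
      · exact Or.inl (h.legal.orth s x (mem_KK.mp hx s hs) hc).symm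
      · exact Or.inr hc
    · right
      intro hc
      exact (hY x hx).2 (mem_nb.mpr ⟨s, hc, hs⟩)

/-- Hall inequality for the columns `G^y`. -/
theorem Opt.hallC {N B C : V → Finset V} (h : Opt N B C) (y : V) (O : Finset V)
    (hO : ∀ s ∈ O, y ∉ B s ∧ s ∉ C y) :
    O.card ≤ (nb N O \ nb N (C y)).card := by
  apply hall_of_cc
  · rw [disjoint_left]
    exact fun x hx hy => (hO x hy).2 hx
  · exact h.symm.row y O (fun x hx => Or.inr (hO x hx).1)

end Vale.Agent.P038.H482
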