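import Vale.Agent.P038.H482.Key

/-!
# Arc-minimal counterexamples, and the contradiction
-/

namespace Vale.Agent.P038.H482

open Finset

set_option linter.unusedSectionVars false

variable {V : Type*} [Fintype V] [DecidableEq V]

/-- closed out-neighbourhood functions of oriented graphs -/
structure Ori (N : V → Finset V) : Prop where
  refl : ∀ v, v ∈ N v
  anti : ∀ a b, b ∈ N a → a ∈ N b → a = b

/-- every vertex violates Seymour's inequality: `|N₂(v)| < |N₁(v)|` -/
def CE (N : V → Finset V) : Prop := ∀ v, (nb N (N v)).card + 1 < 2 * (N v).card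

theorem nb_le {N N' : V → Finset V} (h : ∀ v, N' v ⊆ N v) {S S' : Finset V} (hS : S' ⊆ S) :
    nb N' S' ⊆ nb N S := by
  intro x hx
  obtain ⟨y, hy, hxy⟩ := mem_nb.mp hx
  exact mem_nb.mpr ⟨y, hS hy, h y hxy⟩

/-- In an arc-minimal counterexample the boundary function strictly decreases. -/
theorem G_strict {N : V → Finset V} (hN : Ori N) (hCE : CE N)
    (hmin : ∀ N' : V → Finset V, Ori N' → CE N' →
      ∑ v : V, (N v).card ≤ ∑ v : V, (N' v).card)
    (X : Finset V) (hX : nb N X ≠ X) : cc N (nb N X) < cc N X := by
  classical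
  by_contra hcon
  push Not at hcon
  set L := nb N X \ X with hL
  have hsub : X ⊆ nb N X := subset_nb hN.refl X
  have hXL : nb N X = X ∪ L := by
    rw [hL, union_sdiff_of_subset hsub]
  have hdis : Disjoint X L := disjoint_sdiff
  have hLL : L ⊆ nb N L := subset_nb hN.refl L
  have hnn : nb N (nb N X) = X ∪ (nb N L \ X) := by
    rw [union_sdiff_self_eq_union]
    rw [hXL, nb_union, hXL]
    ext z
    simp only [mem_union]
    constructor
    · rintro ((h | h) | h)
      · exact Or.inl h
      · exact Or.inr (hLL h)
      · exact Or.inr h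
    · rintro (h | h)
      · exact Or.inl (Or.inl h)
      · exact Or.inr h
  have hcX : (nb N X).card = X.card + L.card := by
    rw [hXL, card_union_of_disjoint hdis]
  have hcnn : (nb N (nb N X)).card = X.card + (nb N L \ X).card := by
    rw [hnn, card_union_of_disjoint disjoint_sdiff]
  let d : Finset V → ℤ := fun T => ((nb N T \ X).card : ℤ) - 2 * (T.card : ℤ)
  have d0 : d ∅ = 0 := by simp [d, nb]
  have dL : 0 ≤ d L := by
    unfold cc at hcon
    rw [hcnn, hcX] at hcon
    simp only [d]
    push_cast at hcon
    omega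
  have hLne : L.Nonempty := by
    rw [nonempty_iff_ne_empty]
    intro h0
    rw [h0, union_empty] at hXL
    exact hX hXL
  obtain ⟨T, hT, hTmin⟩ := exists_min_image L.ssubsets d
    ⟨∅, mem_ssubsets.mpr (empty_ssubset.mpr hLne)⟩
  have hTL : T ⊂ L := mem_ssubsets.mp hT
  have hT0 : d T ≤ 0 := by
    rw [← d0]
    exact hTmin ∅ (mem_ssubsets.mpr (empty_ssubset.mpr hLne))
  have key : ∀ D', D' ⊆ L \ T → 2 * D'.card ≤ (nb N D' \ (nb N T ∪ X)).card := by
    intro D' hD'
    have h1 : d T ≤ d (T ∪ D') := by
      by_cases hc : T ∪ D' = L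
      · rw [hc]; exact hT0.trans dL
      · apply hTmin
        rw [mem_ssubsets]
        refine (Finset.ssubset_iff_subset_ne).mpr ⟨union_subset hTL.1 (hD'.trans sdiff_subset), hc⟩
    have hd : Disjoint T D' := by
      rw [disjoint_left]
      intro x hx hx'
      exact (mem_sdiff.mp (hD' hx')).2 hx
    have e1 : (nb N (T ∪ D') \ X).card
        = (nb N T \ X).card + (nb N D' \ (nb N T ∪ X)).card := by
      rw [← card_union_of_disjoint]
      · congr 1
        rw [nb_union]
        ext z
        simp only [mem_sdiff, mem_union]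
        tauto
      · rw [disjoint_left]
        intro z hz hz'
        simp only [mem_sdiff, mem_union] at hz hz'
        tauto
    simp only [d] at h1
    rw [e1, card_union_of_disjoint hd] at h1
    push_cast at h1
    omega
  let N' : V → Finset V := fun v => if v ∈ X then N v ∩ (X ∪ T) else N v
  have hN'in : ∀ v, v ∈ X → N' v = N v ∩ (X ∪ T) := fun v hv => by simp [N', hv]
  have hN'out : ∀ v, v ∉ X → N' v = N v := fun v hv => by simp [N', hv]
  have hN'sub : ∀ v, N' v ⊆ N v := by
    intro v
    by_cases hv : v ∈ X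
    · rw [hN'in v hv]; exact inter_subset_left
    · rw [hN'out v hv]
  have hOri : Ori N' := by
    refine ⟨?_, ?_⟩
    · intro v
      by_cases hv : v ∈ X
      · rw [hN'in v hv, mem_inter, mem_union]
        exact ⟨hN.refl v, Or.inl hv⟩
      · rw [hN'out v hv]; exact hN.refl v
    · intro a b hab hba
      exact hN.anti a b (hN'sub a hab) (hN'sub b hba)
  have hCE' : CE N' := by
    intro v
    have hv0 := hCE v
    by_cases hv : v ∈ X
    · have hD : N v \ (X ∪ T) ⊆ L \ T := by
        intro z hz
        simp only [mem_sdiff, mem_union, not_or] at hz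
        rw [mem_sdiff, hL, mem_sdiff]
        exact ⟨⟨mem_nb.mpr ⟨v, hv, hz.1⟩, hz.2.1⟩, hz.2.2⟩
      have hk := key _ hD
      set D := N v \ (X ∪ T) with hDdef
      set Ev := nb N D \ (nb N T ∪ X) with hEv
      have hEsub : Ev ⊆ nb N (N v) := by
        intro z hz
        exact nb_mono sdiff_subset (mem_sdiff.mp hz).1
      have hsub2 : nb N' (N' v) ⊆ nb N (N v) \ Ev := by
        intro z hz
        rw [mem_sdiff]
        refine ⟨nb_le hN'sub (hN'sub v) hz, ?_⟩
        intro hzE
        have hzE2 := (mem_sdiff.mp hzE).2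
        apply hzE2
        obtain ⟨c, hc, hzc⟩ := mem_nb.mp hz
        rw [hN'in v hv, mem_inter, mem_union] at hc
        rcases hc with ⟨-, hc | hc⟩
        · rw [hN'in c hc, mem_inter, mem_union] at hzc
          rcases hzc.2 with h | h
          · exact mem_union_right _ h
          · exact mem_union_left _ (subset_nb hN.refl T h)
        · apply mem_union_left
          exact mem_nb.mpr ⟨c, hc, hN'sub c hzc⟩
      have hcard := card_le_card hsub2
      have hcs := card_sdiff_add_card_eq_card hEsub
      have hsplit : (N' v).card + D.card = (N v).card := by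
        rw [hN'in v hv, hDdef]
        exact card_inter_add_card_sdiff (N v) (X ∪ T)
      omega
    · rw [hN'out v hv]
      have := card_le_card (nb_le hN'sub (Subset.refl (N v)))
      omega
  have hle := hmin N' hOri hCE'
  obtain ⟨z, hzL, hzT⟩ := exists_of_ssubset hTL
  rw [hL, mem_sdiff] at hzL
  obtain ⟨v0, hv0, hzv0⟩ := mem_nb.mp hzL.1
  have hlt : ∑ v, (N' v).card < ∑ v, (N v).card := by
    apply Finset.sum_lt_sum
    · intro v _
      exact card_le_card (hN'sub v)
    · refine ⟨v0, mem_univ _, ?_⟩
      apply card_lt_card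
      refine (ssubset_iff_of_subset (hN'sub v0)).mpr ⟨z, hzv0, ?_⟩
      rw [hN'in v0 hv0, mem_inter, mem_union]
      tauto
  omega

theorem no_minCE [Nonempty V] {N : V → Finset V} (hN : Ori N) (hCE : CE N)
    (hmin : ∀ N' : V → Finset V, Ori N' → CE N' →
      ∑ v : V, (N v).card ≤ ∑ v : V, (N' v).card) : False := by
  classical
  obtain ⟨B, C, h⟩ := exists_opt (N := N) ⟨fun _ => Subset.refl _, fun _ => Subset.refl _,
    fun a b hb ha => hN.anti a b hb ha⟩
  set X := KK N B with hXdef
  set Y := KK N C with hYdef
  have haX : ∀ a, a ∈ X a := fun a => mem_KK.mpr (fun t ht => h.legal.left t ht)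
  have haY : ∀ a, a ∈ Y a := fun a => mem_KK.mpr (fun t ht => h.legal.right t ht)
  have hleg : Legal N (fun a => nb N (X a)) (fun a => nb N (Y a)) := by
    refine ⟨?_, ?_, ?_⟩
    · intro a z hz
      exact mem_nb.mpr ⟨a, haX a, hz⟩
    · intro a z hz
      exact mem_nb.mpr ⟨a, haY a, hz⟩
    · intro a b hb ha
      exact (orth3 hN.refl h.legal a b).mp ⟨hb, ha⟩
  have h1 := h.opt _ _ hleg
  have h2 := h.key hN.refl
  have hG : ∀ S, cc N (nb N S) ≤ cc N S := by
    intro S
    by_cases hS : nb N S = S
    · rw [hS]
    · exact (G_strict hN hCE hmin S hS).le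
  have hclosed : (∀ a, nb N (X a) = X a) ∧ (∀ a, nb N (Y a) = Y a) := by
    have hx : En N (fun a => nb N (X a)) ≤ En N X :=
      Finset.sum_le_sum (fun a _ => hG (X a))
    have hy : En N (fun a => nb N (Y a)) ≤ En N Y :=
      Finset.sum_le_sum (fun a _ => hG (Y a))
    constructor
    · intro a
      by_contra hc
      have : En N (fun a => nb N (X a)) < En N X :=
        Finset.sum_lt_sum (fun a _ => hG (X a))
          ⟨a, mem_univ _, G_strict hN hCE hmin (X a) hc⟩
      linarith
    · intro a
      by_contra hc
      have : En N (fun a => nb N (Y a)) < En N Y :=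
        Finset.sum_lt_sum (fun a _ => hG (Y a))
          ⟨a, mem_univ _, G_strict hN hCE hmin (Y a) hc⟩
      linarith
  let R : V → Finset V := fun a =>
    univ.filter (fun x => Relation.ReflTransGen (fun u v => v ∈ N u) a x)
  have hRY : ∀ b, R b ⊆ Y b := by
    intro b x hx
    have hx' : Relation.ReflTransGen (fun u v => v ∈ N u) b x := by simpa [R] using hx
    induction hx' with
    | refl => exact haY b
    | tail hbc hcd ih =>
      rw [← hclosed.2 b]
      exact mem_nb.mpr ⟨_, ih (by simpa [R] using hbc), hcd⟩
  obtain ⟨a, -, hamin⟩ := exists_min_image (univ : Finset V) (fun a => (R a).card)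
    univ_nonempty
  have hdeg : 1 < (N a).card := by
    have h3 := hCE a
    have h4 := card_le_card (subset_nb hN.refl (N a))
    omega
  obtain ⟨b, hb, hba⟩ := exists_mem_ne hdeg a
  have hsub : R b ⊂ R a := by
    refine (ssubset_iff_of_subset ?_).mpr ⟨a, ?_, ?_⟩
    · intro x hx
      have hx' : Relation.ReflTransGen (fun u v => v ∈ N u) b x := by simpa [R] using hx
      have : Relation.ReflTransGen (fun u v => v ∈ N u) a x :=
        Relation.ReflTransGen.head hb hx'
      simpa [R] using this
    · simp only [R, mem_filter, mem_univ, true_and]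
      exact Relation.ReflTransGen.refl
    · intro haR
      have haYb : a ∈ nb N (Y b) := subset_nb hN.refl _ (hRY b haR)
      have hbX : b ∈ nb N (X a) := mem_nb.mpr ⟨a, haX a, hb⟩
      exact hba ((orth3 hN.refl h.legal a b).mp ⟨hbX, haYb⟩).symm
  have := card_lt_card hsub
  have h5 := hamin b (mem_univ _)
  omega

theorem no_CE [Nonempty V] {N : V → Finset V} (hN : Ori N) (hCE : CE N) : False := by
  classical
  let S : Finset (V → Finset V) := univ.filter (fun N => Ori N ∧ CE N)
  obtain ⟨M, hM, hmin⟩ := exists_min_image S (fun N => ∑ v, (N v).card) ⟨N, by simp [S, hN, hCE]⟩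
  have hM' : Ori M ∧ CE M := by simpa [S] using hM
  exact no_minCE hM'.1 hM'.2 (fun N' h1 h2 => hmin N' (by simp [S, h1, h2]))

/-- **Seymour's second neighbourhood conjecture.** -/
theorem seymour (V : Type*) [Fintype V] [Nonempty V] (A : V → V → Prop)
    (hA : ∀ u v, A u v → ¬ A v u) :
    ∃ v, Nat.card {u // A v u} ≤ Nat.card {x // x ≠ v ∧ ¬ A v x ∧ ∃ u, A v u ∧ A u x} := by
  classical
  by_contra hcon
  push Not at hcon
  let N : V → Finset V := fun v => univ.filter (fun u => u = v ∨ A v u)
  have hmem : ∀ v u, u ∈ N v ↔ (u = v ∨ A v u) := fun v u => by simp [N]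
  have hN : Ori N := by
    refine ⟨fun v => (hmem v v).mpr (Or.inl rfl), ?_⟩
    intro a b hb ha
    rcases (hmem a b).mp hb with h | h
    · exact h.symm
    · rcases (hmem b a).mp ha with h' | h'
      · exact h'
      · exact absurd h' (hA a b h)
  apply no_CE (N := N) hN
  intro v
  have h := hcon v
  have e1 : (N v).card = Nat.card {u // A v u} + 1 := by
    have : N v = insert v (univ.filter (fun u => A v u)) := by
      ext u
      simp [hmem]
    rw [this, card_insert_of_notMem]
    · rw [Nat.card_eq_fintype_card, Fintype.card_subtype]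
    · simp only [mem_filter, mem_univ, true_and]
      intro hvv
      exact hA v v hvv hvv
  have e2 : (nb N (N v)).card
      ≤ (N v).card + Nat.card {x // x ≠ v ∧ ¬ A v x ∧ ∃ u, A v u ∧ A u x} := by
    have : nb N (N v) ⊆ N v ∪ univ.filter (fun x => x ≠ v ∧ ¬ A v x ∧ ∃ u, A v u ∧ A u x) := by
      intro x hx
      obtain ⟨y, hy, hxy⟩ := mem_nb.mp hx
      by_cases hxN : x ∈ N v
      · exact mem_union_left _ hxN
      · apply mem_union_right
        rw [hmem, not_or] at hxN
        simp only [mem_filter, mem_univ, true_and]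
        refine ⟨hxN.1, hxN.2, y, ?_, ?_⟩
        · rcases (hmem v y).mp hy with h' | h'
          · subst h'
            exact absurd ((hmem y x).mp hxy) (by rw [not_or]; exact hxN)
          · exact h'
        · rcases (hmem y x).mp hxy with h' | h'
          · subst h'
            exact absurd ((hmem v x).mp hy) (by rw [not_or]; exact hxN)
          · exact h'
    refine (card_le_card this).trans ((card_union_le _ _).trans ?_)
    rw [Nat.card_eq_fintype_card, Fintype.card_subtype]
  omega

end Vale.Agent.P038.H482
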