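import Vale.Agent.P038.H482.Base

/-!
# The rank function `ff S A` (a min-cut formula) and its marginals
-/

namespace Vale.Agent.P038.H482

open Finset

set_option linter.unusedSectionVars false

variable {V : Type*} [Fintype V] [DecidableEq V]

/-- `ff N S A = min over K ⊆ S of |S \ K| + |N[K] ∩ A|` -/
noncomputable def ff (N : V → Finset V) (S A : Finset V) : ℕ :=
  (S.powerset).inf' ⟨∅, empty_mem_powerset S⟩ (fun K => (S \ K).card + (nb N K ∩ A).card)

theorem ff_le {N : V → Finset V} {S A K : Finset V} (h : K ⊆ S) :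
    ff N S A ≤ (S \ K).card + (nb N K ∩ A).card := by
  unfold ff
  exact inf'_le (fun K => (S \ K).card + (nb N K ∩ A).card) (mem_powerset.mpr h)

theorem ff_attain (N : V → Finset V) (S A : Finset V) :
    ∃ K, K ⊆ S ∧ ff N S A = (S \ K).card + (nb N K ∩ A).card := by
  unfold ff
  obtain ⟨K, hK, e⟩ := exists_mem_eq_inf' (s := S.powerset) ⟨∅, empty_mem_powerset S⟩
    (fun K => (S \ K).card + (nb N K ∩ A).card)
  exact ⟨K, mem_powerset.mp hK, e⟩

theorem ff_empty (N : V → Finset V) (S : Finset V) : ff N S ∅ = 0 := by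
  have := ff_le (N := N) (A := ∅) (Subset.refl S)
  simpa using this

theorem ff_hall {N : V → Finset V} {S A : Finset V}
    (h : ∀ K, K ⊆ S → K.card ≤ (nb N K ∩ A).card) : ff N S A = S.card := by
  apply le_antisymm
  · have := ff_le (N := N) (A := A) (empty_subset S)
    simpa [nb] using this
  · obtain ⟨K, hK, e⟩ := ff_attain N S A
    rw [e]
    have h1 := h K hK
    have h2 := card_sdiff_add_card_eq_card hK
    omega

theorem ff_mono {N : V → Finset V} {S A A' : Finset V} (h : A ⊆ A') : ff N S A ≤ ff N S A' := by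
  obtain ⟨K, hK, e⟩ := ff_attain N S A'
  rw [e]
  refine (ff_le hK).trans ?_
  have := card_le_card (inter_subset_inter_left h : nb N K ∩ A ⊆ nb N K ∩ A')
  omega

theorem ff_insert_le {N : V → Finset V} {S A : Finset V} (a : V) :
    ff N S (insert a A) ≤ ff N S A + 1 := by
  obtain ⟨K, hK, e⟩ := ff_attain N S A
  rw [e]
  refine (ff_le hK).trans ?_
  have h1 : nb N K ∩ insert a A ⊆ insert a (nb N K ∩ A) := by
    intro x hx
    simp only [mem_inter, mem_insert] at hx ⊢
    tauto
  have h2 := card_le_card h1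
  have h3 := card_insert_le a (nb N K ∩ A)
  omega

theorem ff_insert_eq {N : V → Finset V} {S A : Finset V} {a : V} (h : a ∉ nb N S) :
    ff N S (insert a A) = ff N S A := by
  apply le_antisymm _ (ff_mono (subset_insert a A))
  obtain ⟨K, hK, e⟩ := ff_attain N S A
  rw [e]
  refine (ff_le hK).trans ?_
  have h1 : nb N K ∩ insert a A ⊆ nb N K ∩ A := by
    intro x hx
    simp only [mem_inter, mem_insert] at hx ⊢
    rcases hx with ⟨hx, rfl | hx'⟩
    · exact absurd (nb_mono hK hx) h
    · exact ⟨hx, hx'⟩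
  have h2 := card_le_card h1
  omega

/-- The marginal lemma. -/
theorem ff_marg {N : V → Finset V} {S S' P P' : Finset V} {a : V} (hP : P ⊆ P')
    (hS : ∀ s ∈ S', ∀ z ∈ insert a P, z ∈ N s → s ∈ S) :
    ff N S' (insert a P') + ff N S P ≤ ff N S (insert a P) + ff N S' P' := by
  obtain ⟨K, hK, e⟩ := ff_attain N S (insert a P)
  obtain ⟨K', hK', e'⟩ := ff_attain N S' P'
  rw [e, e']
  have hK1 : (K ∩ K') ∪ (K' \ S) ⊆ S' := by
    intro x hx
    rcases mem_union.mp hx with hx | hx
    · exact hK' (mem_inter.mp hx).2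
    · exact hK' (mem_sdiff.mp hx).1
  have hK2 : K ∪ (K' ∩ S) ⊆ S := by
    intro x hx
    rcases mem_union.mp hx with hx | hx
    · exact hK hx
    · exact (mem_inter.mp hx).2
  have l1 := ff_le (N := N) (A := insert a P') hK1
  have l2 := ff_le (N := N) (A := P) hK2
  -- sizes
  have c1 := card_sdiff_add_card_eq_card hK1
  have c2 := card_sdiff_add_card_eq_card hK2
  have c3 := card_sdiff_add_card_eq_card hK
  have c4 := card_sdiff_add_card_eq_card hK'
  have d1 : ((K ∩ K') ∪ (K' \ S)).card = (K ∩ K').card + (K' \ S).card := by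
    apply card_union_of_disjoint
    rw [disjoint_left]
    intro x hx hx'
    exact (mem_sdiff.mp hx').2 (hK (mem_inter.mp hx).1)
  have d2 : (K ∪ (K' ∩ S)).card + (K ∩ K').card = K.card + (K' ∩ S).card := by
    have : K ∩ K' = K ∩ (K' ∩ S) := by
      ext x
      simp only [mem_inter]
      constructor
      · exact fun h => ⟨h.1, h.2, hK h.1⟩
      · exact fun h => ⟨h.1, h.2.1⟩
    rw [this]
    exact card_union_add_card_inter _ _
  have d3 : (K' ∩ S).card + (K' \ S).card = K'.card := card_inter_add_card_sdiff K' S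
  -- coverage
  set X1 := nb N ((K ∩ K') ∪ (K' \ S)) ∩ insert a P' with hX1
  set X2 := nb N (K ∪ (K' ∩ S)) ∩ P with hX2
  set Y1 := nb N K ∩ insert a P with hY1
  set Y2 := nb N K' ∩ P' with hY2
  have u1 : X1 ∪ X2 ⊆ Y1 ∪ Y2 := by
    intro z hz
    rcases mem_union.mp hz with hz | hz
    · rw [hX1, mem_inter, mem_nb] at hz
      obtain ⟨⟨k, hk, hzk⟩, hz2⟩ := hz
      rcases mem_insert.mp hz2 with hz2 | hz2
      · rcases mem_union.mp hk with hk | hk
        · apply mem_union_left
          rw [hY1, mem_inter, mem_nb]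
          exact ⟨⟨k, (mem_inter.mp hk).1, hzk⟩, by rw [hz2]; exact mem_insert_self _ _⟩
        · exfalso
          have := hS k (hK' (mem_sdiff.mp hk).1) z (by rw [hz2]; exact mem_insert_self _ _) hzk
          exact (mem_sdiff.mp hk).2 this
      · apply mem_union_right
        rw [hY2, mem_inter, mem_nb]
        refine ⟨⟨k, ?_, hzk⟩, hz2⟩
        rcases mem_union.mp hk with hk | hk
        · exact (mem_inter.mp hk).2
        · exact (mem_sdiff.mp hk).1
    · rw [hX2, mem_inter, mem_nb] at hz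
      obtain ⟨⟨k, hk, hzk⟩, hz2⟩ := hz
      rcases mem_union.mp hk with hk | hk
      · apply mem_union_left
        rw [hY1, mem_inter, mem_nb]
        exact ⟨⟨k, hk, hzk⟩, mem_insert_of_mem hz2⟩
      · apply mem_union_right
        rw [hY2, mem_inter, mem_nb]
        exact ⟨⟨k, (mem_inter.mp hk).1, hzk⟩, hP hz2⟩
  have u2 : X1 ∩ X2 ⊆ Y1 ∩ Y2 := by
    intro z hz
    rw [mem_inter, hX1, hX2, mem_inter, mem_inter, mem_nb] at hz
    obtain ⟨⟨⟨k, hk, hzk⟩, -⟩, -, hzP⟩ := hz
    rcases mem_union.mp hk with hk | hk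
    · rw [mem_inter, hY1, hY2, mem_inter, mem_inter, mem_nb, mem_nb]
      exact ⟨⟨⟨k, (mem_inter.mp hk).1, hzk⟩, mem_insert_of_mem hzP⟩,
        ⟨⟨k, (mem_inter.mp hk).2, hzk⟩, hP hzP⟩⟩
    · exfalso
      have := hS k (hK' (mem_sdiff.mp hk).1) z (mem_insert_of_mem hzP) hzk
      exact (mem_sdiff.mp hk).2 this
  have v1 := card_le_card u1
  have v2 := card_le_card u2
  have w1 := card_union_add_card_inter X1 X2
  have w2 := card_union_add_card_inter Y1 Y2
  omega

end Vale.Agent.P038.H482
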