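import Vale.Agent.P038.H482.Lam

/-!
# The key inequality: `E(K) + E(M) ≤ E(B) + E(C)` at an optimal pair
-/

namespace Vale.Agent.P038.H482

open Finset

set_option linter.unusedSectionVars false

variable {V : Type*} [Fintype V] [DecidableEq V]

def GG (B C : V → Finset V) (y : V) : Finset V := univ.filter (fun s => y ∉ B s ∧ s ∉ C y)

def HH (N B C : V → Finset V) (y : V) : Finset V :=
  univ.filter (fun a => y ∉ KK N B a ∧ a ∉ nb N (C y))

def JJ (N B C : V → Finset V) (x : V) : Finset V :=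
  univ.filter (fun s => x ∉ nb N (B s) ∧ s ∉ KK N C x)

def QQ (N B C : V → Finset V) (x : V) : Finset V :=
  univ.filter (fun a => x ∉ nb N (KK N B a) ∧ a ∉ nb N (KK N C x))

theorem mem_GG {B C : V → Finset V} {y s : V} : s ∈ GG B C y ↔ y ∉ B s ∧ s ∉ C y := by
  simp [GG]

theorem mem_HH {N B C : V → Finset V} {y a : V} :
    a ∈ HH N B C y ↔ y ∉ KK N B a ∧ a ∉ nb N (C y) := by
  simp [HH]

theorem mem_JJ {N B C : V → Finset V} {x s : V} :
    s ∈ JJ N B C x ↔ x ∉ nb N (B s) ∧ s ∉ KK N C x := by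
  simp [JJ]

theorem mem_QQ {N B C : V → Finset V} {x a : V} :
    a ∈ QQ N B C x ↔ x ∉ nb N (KK N B a) ∧ a ∉ nb N (KK N C x) := by
  simp [QQ]

theorem KK_subset {N C : V → Finset V} {x y : V} (h : x ∈ N y) : KK N C x ⊆ C y :=
  fun _ hs => mem_KK.mp hs y h

section

variable {n : ℕ} (e : V ≃ Fin n) {N B C : V → Finset V}

theorem sumG (h : Opt N B C) (y : V) :
    ∑ a, lam e N (GG B C y) (nb N (C y)) a = ((GG B C y).card : ℤ) := by
  rw [lam_sum, ff_hall]
  intro K hK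
  have := h.hallC y K (fun s hs => mem_GG.mp (hK hs))
  have e1 : nb N K ∩ (univ \ nb N (C y)) = nb N K \ nb N (C y) := by
    ext z; simp
  rwa [e1]

theorem sumJ (h : Opt N B C) (x : V) :
    ∑ a, lam e N (JJ N B C x) (nb N (KK N C x)) a = ((JJ N B C x).card : ℤ) := by
  rw [lam_sum, ff_hall]
  intro K hK
  have := h.symm.hallK x K (fun s hs => ⟨(mem_JJ.mp (hK hs)).2, (mem_JJ.mp (hK hs)).1⟩)
  have e1 : nb N K ∩ (univ \ nb N (KK N C x)) = nb N K \ nb N (KK N C x) := by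
    ext z; simp
  rwa [e1]

theorem suppG {y a : V} (ha : lam e N (GG B C y) (nb N (C y)) a ≠ 0) : a ∈ HH N B C y := by
  obtain ⟨h1, h2⟩ := lam_support e N _ _ ha
  obtain ⟨s, hs, has⟩ := mem_nb.mp h2
  rw [mem_HH]
  exact ⟨fun hy => (mem_GG.mp hs).1 (mem_KK.mp hy s has), h1⟩

theorem suppJ {x a : V} (ha : lam e N (JJ N B C x) (nb N (KK N C x)) a ≠ 0) :
    a ∈ QQ N B C x := by
  obtain ⟨h1, h2⟩ := lam_support e N _ _ ha
  obtain ⟨s, hs, has⟩ := mem_nb.mp h2
  rw [mem_QQ]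
  refine ⟨fun hx => ?_, h1⟩
  obtain ⟨y, hy, hxy⟩ := mem_nb.mp hx
  exact (mem_JJ.mp hs).1 (mem_nb.mpr ⟨y, mem_KK.mp hy s has, hxy⟩)

theorem monoGJ {x y a : V} (hxy : x ∈ N y) (ha : a ∉ nb N (C y)) :
    lam e N (JJ N B C x) (nb N (KK N C x)) a ≤ lam e N (GG B C y) (nb N (C y)) a := by
  apply lam_mono e (nb_mono (KK_subset hxy)) ha
  intro s hs hsG
  have hc : s ∈ C y := by
    by_contra hc
    apply hsG
    rw [mem_GG]
    refine ⟨fun hy => ?_, hc⟩
    exact (mem_JJ.mp hs).1 (mem_nb.mpr ⟨y, hy, hxy⟩)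
  intro z hz
  exact mem_nb.mpr ⟨s, hc, hz⟩

theorem rowIneq (h : Opt N B C) (a : V) :
    (univ.filter (fun y => a ∈ HH N B C y ∧ lam e N (GG B C y) (nb N (C y)) a = 0)).card ≤
    (univ.filter (fun x => a ∈ QQ N B C x ∧
      lam e N (JJ N B C x) (nb N (KK N C x)) a = 0)).card := by
  classical
  have h1 := h.hallK a
    (univ.filter (fun y => a ∈ HH N B C y ∧ lam e N (GG B C y) (nb N (C y)) a = 0))
    (fun y hy => mem_HH.mp (mem_filter.mp hy).2.1)
  refine h1.trans (card_le_card ?_)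
  intro x hx
  obtain ⟨hx1, hx2⟩ := mem_sdiff.mp hx
  obtain ⟨y, hy, hxy⟩ := mem_nb.mp hx1
  obtain ⟨-, hyH, hy0⟩ := mem_filter.mp hy
  have haC := (mem_HH.mp hyH).2
  rw [mem_filter]
  refine ⟨mem_univ _, ?_, ?_⟩
  · rw [mem_QQ]
    exact ⟨hx2, fun hc => haC (nb_mono (KK_subset hxy) hc)⟩
  · apply le_antisymm _ (lam_nonneg e N _ _ _)
    rw [← hy0]
    exact monoGJ e hxy haC

/-- `|s| - Σ load = number of unused elements` -/
theorem card_sub_sum {W : Type*} [Fintype W] [DecidableEq W] (s : Finset W) (l : W → ℤ)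
    (h0 : ∀ a, 0 ≤ l a) (h1 : ∀ a, l a ≤ 1) (hs : ∀ a, l a ≠ 0 → a ∈ s) :
    (s.card : ℤ) - ∑ a, l a = ∑ a, (if (a ∈ s ∧ l a = 0) then (1 : ℤ) else 0) := by
  have e1 : (s.card : ℤ) = ∑ a, (if a ∈ s then (1 : ℤ) else 0) := by
    simp
  rw [e1, ← Finset.sum_sub_distrib]
  apply Finset.sum_congr rfl
  intro a _
  have ha0 := h0 a
  have ha1 := h1 a
  by_cases hm : a ∈ s
  · by_cases hl : l a = 0
    · simp [hm, hl]
    · have : l a = 1 := by omega
      simp [hm, this]
  · have : l a = 0 := by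
      by_contra hc
      exact hm (hs a hc)
    simp [hm, this]

theorem count (h : Opt N B C) :
    (∑ y, ((HH N B C y).card : ℤ)) - ∑ y, ((GG B C y).card : ℤ)
      ≤ (∑ x, ((QQ N B C x).card : ℤ)) - ∑ x, ((JJ N B C x).card : ℤ) := by
  classical
  obtain ⟨e⟩ : Nonempty (V ≃ Fin (Fintype.card V)) := ⟨Fintype.equivFin V⟩
  have eH : (∑ y, ((HH N B C y).card : ℤ)) - ∑ y, ((GG B C y).card : ℤ)
      = ∑ a, (((univ.filter (fun y => a ∈ HH N B C y ∧
          lam e N (GG B C y) (nb N (C y)) a = 0)).card : ℕ) : ℤ) := by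
    rw [← Finset.sum_sub_distrib]
    have : ∀ y, ((HH N B C y).card : ℤ) - ((GG B C y).card : ℤ)
        = ∑ a, (if (a ∈ HH N B C y ∧ lam e N (GG B C y) (nb N (C y)) a = 0)
            then (1 : ℤ) else 0) := by
      intro y
      rw [← sumG e h y]
      exact card_sub_sum _ _ (fun a => lam_nonneg e N _ _ a) (fun a => lam_le_one e N _ _ a)
        (fun a ha => suppG e ha)
    rw [Finset.sum_congr rfl (fun y _ => this y), Finset.sum_comm]
    apply Finset.sum_congr rfl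
    intro a _
    simp [Finset.sum_boole]
  have eQ : (∑ x, ((QQ N B C x).card : ℤ)) - ∑ x, ((JJ N B C x).card : ℤ)
      = ∑ a, (((univ.filter (fun x => a ∈ QQ N B C x ∧
          lam e N (JJ N B C x) (nb N (KK N C x)) a = 0)).card : ℕ) : ℤ) := by
    rw [← Finset.sum_sub_distrib]
    have : ∀ x, ((QQ N B C x).card : ℤ) - ((JJ N B C x).card : ℤ)
        = ∑ a, (if (a ∈ QQ N B C x ∧ lam e N (JJ N B C x) (nb N (KK N C x)) a = 0)
            then (1 : ℤ) else 0) := by
      intro x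
      rw [← sumJ e h x]
      exact card_sub_sum _ _ (fun a => lam_nonneg e N _ _ a) (fun a => lam_le_one e N _ _ a)
        (fun a ha => suppJ e ha)
    rw [Finset.sum_congr rfl (fun x _ => this x), Finset.sum_comm]
    apply Finset.sum_congr rfl
    intro a _
    simp [Finset.sum_boole]
  rw [eH, eQ]
  apply Finset.sum_le_sum
  intro a _
  exact_mod_cast rowIneq e h a

end

section energy

variable {N B C : V → Finset V}

theorem orth1 (hr : ∀ v, v ∈ N v) (h : Legal N B C) (a x : V) :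
    (x ∈ B a ∧ a ∈ C x) ↔ a = x := by
  constructor
  · exact fun hh => h.orth a x hh.1 hh.2
  · rintro rfl
    exact ⟨h.left a (hr a), h.right a (hr a)⟩

theorem orth2 (hr : ∀ v, v ∈ N v) (h : Legal N B C) (a x : V) :
    (x ∈ nb N (B a) ∧ a ∈ KK N C x) ↔ a = x := by
  constructor
  · rintro ⟨h1, h2⟩
    obtain ⟨y, hy, hxy⟩ := mem_nb.mp h1
    have e1 : a = y := h.orth a y hy (mem_KK.mp h2 y hxy)
    subst e1
    exact h.orth a x (h.left a hxy) (mem_KK.mp h2 x (hr x))
  · rintro rfl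
    exact ⟨mem_nb.mpr ⟨a, h.left a (hr a), hr a⟩, mem_KK.mpr (fun t ht => h.right t ht)⟩

theorem orth3 (hr : ∀ v, v ∈ N v) (h : Legal N B C) (a x : V) :
    (x ∈ nb N (KK N B a) ∧ a ∈ nb N (KK N C x)) ↔ a = x := by
  constructor
  · rintro ⟨h1, h2⟩
    obtain ⟨u, hu, hxu⟩ := mem_nb.mp h1
    obtain ⟨v, hv, hav⟩ := mem_nb.mp h2
    have e1 : v = u := h.orth v u (mem_KK.mp hu v hav) (mem_KK.mp hv u hxu)
    subst e1
    have e2 : a = v := h.orth a v (mem_KK.mp hu a (hr a)) (h.right v hav)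
    have e3 : v = x := h.orth v x (h.left v hxu) (mem_KK.mp hv x (hr x))
    exact e2.trans e3
  · rintro rfl
    exact ⟨mem_nb.mpr ⟨a, mem_KK.mpr (fun t ht => h.left t ht), hr a⟩,
      mem_nb.mpr ⟨a, mem_KK.mpr (fun t ht => h.right t ht), hr a⟩⟩

theorem ind_id {P R E : Prop} [Decidable P] [Decidable R] [Decidable E] (h : (P ∧ R) ↔ E) :
    (if (¬ P ∧ ¬ R) then (1 : ℤ) else 0)
      = 1 - (if P then (1 : ℤ) else 0) - (if R then (1 : ℤ) else 0)
        + (if E then (1 : ℤ) else 0) := by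
  by_cases hP : P <;> by_cases hR : R
  · have : E := h.mp ⟨hP, hR⟩
    simp [hP, hR, this]
  · have : ¬ E := fun hE => hR (h.mpr hE).2
    simp [hP, hR, this]
  · have : ¬ E := fun hE => hP (h.mpr hE).1
    simp [hP, hR, this]
  · have : ¬ E := fun hE => hP (h.mpr hE).1
    simp [hP, hR, this]

theorem card_ind (s : Finset V) : (s.card : ℤ) = ∑ a, (if a ∈ s then (1 : ℤ) else 0) := by
  simp

/-- energy as a double sum, rows first -/
theorem En_rows (N B : V → Finset V) :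
    En N B = ∑ x, ∑ a, ((if x ∈ nb N (B a) then (1 : ℤ) else 0)
      - (if x ∈ B a then (1 : ℤ) else 0)) := by
  unfold En cc
  rw [Finset.sum_comm]
  apply Finset.sum_congr rfl
  intro a _
  rw [card_ind, card_ind, Finset.sum_sub_distrib]

/-- energy as a double sum, columns first -/
theorem En_cols (N C : V → Finset V) :
    En N C = ∑ x, ∑ a, ((if a ∈ nb N (C x) then (1 : ℤ) else 0)
      - (if a ∈ C x then (1 : ℤ) else 0)) := by
  unfold En cc
  apply Finset.sum_congr rfl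
  intro a _
  rw [card_ind, card_ind, Finset.sum_sub_distrib]

theorem energy_id (hr : ∀ v, v ∈ N v) (h : Legal N B C) :
    (En N B + En N C) - (En N (KK N B) + En N (KK N C))
      = ((∑ x, ((QQ N B C x).card : ℤ)) - ∑ x, ((JJ N B C x).card : ℤ))
        - ((∑ y, ((HH N B C y).card : ℤ)) - ∑ y, ((GG B C y).card : ℤ)) := by
  rw [En_rows N B, En_cols N C, En_rows N (KK N B), En_cols N (KK N C)]
  simp only [← Finset.sum_add_distrib, ← Finset.sum_sub_distrib]
  apply Finset.sum_congr rfl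
  intro x _
  rw [card_ind (QQ N B C x), card_ind (JJ N B C x), card_ind (HH N B C x), card_ind (GG B C x)]
  simp only [← Finset.sum_add_distrib, ← Finset.sum_sub_distrib]
  apply Finset.sum_congr rfl
  intro a _
  have q := ind_id (orth3 hr h a x)
  have g := ind_id (orth1 hr h a x)
  have j := ind_id (orth2 hr h a x)
  have k : (x ∈ KK N B a ∧ a ∈ nb N (C x)) ↔ a = x := by
    have := orth2 hr h.symm x a
    rw [and_comm, this, eq_comm]
  have k' := ind_id k
  simp only [mem_QQ, mem_JJ, mem_HH, mem_GG]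
  rw [q, g, j, k']
  ring

/-- **Key inequality.** -/
theorem Opt.key (hr : ∀ v, v ∈ N v) (h : Opt N B C) :
    En N (KK N B) + En N (KK N C) ≤ En N B + En N C := by
  have h1 := count h
  have h2 := energy_id hr h.legal
  linarith

end energy

end Vale.Agent.P038.H482
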