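import Vale.Agent.P038.H482.Flow

/-!
# Greedy loads
-/

namespace Vale.Agent.P038.H482

open Finset

set_option linter.unusedSectionVars false

variable {V : Type*} [Fintype V] [DecidableEq V]

/-- the first `k` vertices -/
def pre {n : ℕ} (e : V ≃ Fin n) (k : ℕ) : Finset V := univ.filter (fun u => (e u : ℕ) < k)

theorem pre_succ {n : ℕ} (e : V ≃ Fin n) (v : V) :
    pre e ((e v : ℕ) + 1) = insert v (pre e (e v : ℕ)) := by
  ext u
  simp only [pre, mem_filter, mem_univ, true_and, mem_insert]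
  constructor
  · intro h
    rcases Nat.lt_succ_iff_lt_or_eq.mp h with h | h
    · exact Or.inr h
    · left
      exact e.injective (Fin.ext h)
  · rintro (rfl | h)
    · exact Nat.lt_succ_self _
    · exact Nat.lt_succ_of_lt h

theorem pre_zero {n : ℕ} (e : V ≃ Fin n) : pre e 0 = ∅ := by
  ext u
  simp [pre]

theorem pre_top {n : ℕ} (e : V ≃ Fin n) : pre e n = univ := by
  ext u
  simp [pre]

/-- greedy load of the vertex `v` -/
noncomputable def lam {n : ℕ} (e : V ≃ Fin n) (N : V → Finset V) (S Z : Finset V) (v : V) : ℤ :=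
  (ff N S (pre e ((e v : ℕ) + 1) \ Z) : ℤ) - (ff N S (pre e (e v : ℕ) \ Z) : ℤ)

theorem lam_sum {n : ℕ} (e : V ≃ Fin n) (N : V → Finset V) (S Z : Finset V) :
    ∑ v, lam e N S Z v = (ff N S (univ \ Z) : ℤ) := by
  have h1 : ∑ v, lam e N S Z v
      = ∑ i : Fin n, ((ff N S (pre e ((i : ℕ) + 1) \ Z) : ℤ) - (ff N S (pre e (i : ℕ) \ Z) : ℤ)) := by
    rw [← Equiv.sum_comp e]
    rfl
  rw [h1, ← Finset.sum_range
    (fun i => ((ff N S (pre e (i + 1) \ Z) : ℤ) - (ff N S (pre e i \ Z) : ℤ))),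
    Finset.sum_range_sub (fun i => (ff N S (pre e i \ Z) : ℤ)), pre_top, pre_zero]
  simp [ff_empty]

theorem lam_nonneg {n : ℕ} (e : V ≃ Fin n) (N : V → Finset V) (S Z : Finset V) (v : V) :
    0 ≤ lam e N S Z v := by
  unfold lam
  have : ff N S (pre e (e v : ℕ) \ Z) ≤ ff N S (pre e ((e v : ℕ) + 1) \ Z) := by
    apply ff_mono
    rw [pre_succ]
    exact sdiff_subset_sdiff (subset_insert _ _) (Subset.refl _)
  omega

theorem insert_sdiff_notMem' {v : V} {P Z : Finset V} (h : v ∉ Z) :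
    insert v P \ Z = insert v (P \ Z) := insert_sdiff_of_notMem P h

theorem lam_of_mem {n : ℕ} (e : V ≃ Fin n) (N : V → Finset V) (S Z : Finset V) {v : V}
    (h : v ∈ Z) : lam e N S Z v = 0 := by
  unfold lam
  rw [pre_succ, insert_sdiff_of_mem _ h]
  simp

theorem lam_le_one {n : ℕ} (e : V ≃ Fin n) (N : V → Finset V) (S Z : Finset V) (v : V) :
    lam e N S Z v ≤ 1 := by
  by_cases h : v ∈ Z
  · rw [lam_of_mem e N S Z h]
    norm_num
  · unfold lam
    rw [pre_succ, insert_sdiff_notMem' h]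
    have := ff_insert_le (N := N) (S := S) (A := pre e (e v : ℕ) \ Z) v
    omega

theorem lam_support {n : ℕ} (e : V ≃ Fin n) (N : V → Finset V) (S Z : Finset V) {v : V}
    (h : lam e N S Z v ≠ 0) : v ∉ Z ∧ v ∈ nb N S := by
  constructor
  · intro hv
    exact h (lam_of_mem e N S Z hv)
  · by_contra hv
    apply h
    by_cases hz : v ∈ Z
    · exact lam_of_mem e N S Z hz
    · unfold lam
      rw [pre_succ, insert_sdiff_notMem' hz, ff_insert_eq hv]
      simp

theorem lam_mono {n : ℕ} (e : V ≃ Fin n) {N : V → Finset V} {S S' Z Z' : Finset V} {v : V}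
    (hZ : Z' ⊆ Z) (hv : v ∉ Z) (hS : ∀ s ∈ S', s ∉ S → N s ⊆ Z) :
    lam e N S' Z' v ≤ lam e N S Z v := by
  unfold lam
  rw [pre_succ, insert_sdiff_notMem' hv, insert_sdiff_notMem' (fun h => hv (hZ h))]
  have := ff_marg (N := N) (S := S) (S' := S') (a := v)
    (P := pre e (e v : ℕ) \ Z) (P' := pre e (e v : ℕ) \ Z')
    (sdiff_subset_sdiff (Subset.refl _) hZ) (by
      intro s hs z hz hzs
      by_contra hc
      have hzZ := hS s hs hc hzs
      rcases mem_insert.mp hz with rfl | hz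
      · exact hv hzZ
      · exact (mem_sdiff.mp hz).2 hzZ)
  omega

end Vale.Agent.P038.H482
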